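import Vale.Agent.P237.Quant.TailData.N52.tailN52P0Part0
import Vale.Agent.P237.Quant.TailData.N52.tailN52P0Part1
import Vale.Agent.P237.Quant.TailData.N52.tailN52P0Part2
import Vale.Agent.P237.Quant.TailData.N52.tailN52P0Part3
import Vale.Agent.P237.Quant.TailData.N52.tailN52P0Part4
import Vale.Agent.P237.Quant.TailData.N52.tailN52P0Part5
import Vale.Agent.P237.Quant.TailData.N52.tailN52P0Part6
import Vale.Agent.P237.Quant.TailData.N52.tailN52P0Part7

/-!
Tail calibration tailN52P0 in dimension 52. The check. Generated data, checked by the kernel.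
-/

set_option maxRecDepth 100000
set_option linter.all false

namespace Vale.Agent.P237.Quant.TailData

open TailCert


/-- The calibration. -/
noncomputable def tailN52P0 : Cfg :=
  tailN52P0Base.withIvals (List.flatten [tailN52P0L0, tailN52P0L1, tailN52P0L2, tailN52P0L3, tailN52P0L4, tailN52P0L5, tailN52P0L6, tailN52P0L7, tailN52P0L8, tailN52P0L9, tailN52P0L10, tailN52P0L11, tailN52P0L12, tailN52P0L13, tailN52P0L14, tailN52P0L15, tailN52P0L16, tailN52P0L17, tailN52P0L18, tailN52P0L19, tailN52P0L20, tailN52P0L21, tailN52P0L22, tailN52P0L23, tailN52P0L24, tailN52P0L25, tailN52P0L26, tailN52P0L27, tailN52P0L28, tailN52P0L29])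

theorem tailN52P0_parts : [tailN52P0L0, tailN52P0L1, tailN52P0L2, tailN52P0L3, tailN52P0L4, tailN52P0L5, tailN52P0L6, tailN52P0L7, tailN52P0L8, tailN52P0L9, tailN52P0L10, tailN52P0L11, tailN52P0L12, tailN52P0L13, tailN52P0L14, tailN52P0L15, tailN52P0L16, tailN52P0L17, tailN52P0L18, tailN52P0L19, tailN52P0L20, tailN52P0L21, tailN52P0L22, tailN52P0L23, tailN52P0L24, tailN52P0L25, tailN52P0L26, tailN52P0L27, tailN52P0L28, tailN52P0L29].Forall fun l => tailN52P0Base.partUsed tailN52P0Used l = true := by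
  simp only [List.forall_cons, List.Forall]
  exact ⟨tailN52P0L0_ok, tailN52P0L1_ok, tailN52P0L2_ok, tailN52P0L3_ok, tailN52P0L4_ok, tailN52P0L5_ok, tailN52P0L6_ok, tailN52P0L7_ok, tailN52P0L8_ok, tailN52P0L9_ok, tailN52P0L10_ok, tailN52P0L11_ok, tailN52P0L12_ok, tailN52P0L13_ok, tailN52P0L14_ok, tailN52P0L15_ok, tailN52P0L16_ok, tailN52P0L17_ok, tailN52P0L18_ok, tailN52P0L19_ok, tailN52P0L20_ok, tailN52P0L21_ok, tailN52P0L22_ok, tailN52P0L23_ok, tailN52P0L24_ok, tailN52P0L25_ok, tailN52P0L26_ok, tailN52P0L27_ok, tailN52P0L28_ok, tailN52P0L29_ok⟩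

theorem tailN52P0_check : tailN52P0.check = true :=
  Cfg.check_of_parts (by decide +kernel) tailN52P0_parts

end Vale.Agent.P237.Quant.TailData
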