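import Vale.Agent.P237.Quant.TailPartsLink
import Vale.Agent.P237.Quant.RowTables
import Vale.Agent.P237.Quant.EnvelopeTableData.N46
import Vale.Agent.P237.Quant.TailData.N52.tailN52P0
import Vale.Agent.P237.Quant.TailData.N52.tailN52P1
import Vale.Agent.P237.Quant.TailData.N52.tailN52P2
import Vale.Agent.P237.Quant.TailData.N52.tailN52P3
import Vale.Agent.P237.Quant.TailData.N52.tailN52N0
import Vale.Agent.P237.Quant.TailData.N52.tailN52N1

/-!
The tail inequalities of the rows of both sides in dimension 52. Generated.
-/

namespace Vale.Agent.P237.Quant

open TailCert TailData

/-- The tail inequalities of `negRow14` in dimension 52. -/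
theorem negRow14_tailAt52 : negRow14.TailAt 51 := by
  intro P hP
  simp only [negRow14, binsOf, List.mem_cons, List.not_mem_nil, or_false] at hP
  rcases hP with rfl | rfl
  · exact tailBin_negParts tailN52N0_check tailN52N0_parts envTable52_check (by decide +kernel)
  · exact tailBin_negParts tailN52N1_check tailN52N1_parts envTable52_check (by decide +kernel)

/-- The tail inequalities of `posRow43` in dimension 52. -/
theorem posRow43_tailAt52 : posRow43.TailAt 51 := by
  intro P hP
  simp only [posRow43, posRowB, posCuts14, posCuts16, binsOf, List.mem_cons, List.not_mem_nil, or_false] at hP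
  rcases hP with rfl | rfl | rfl | rfl
  · exact tailBin_posParts tailN52P0_check tailN52P0_parts envTable52_check (by decide +kernel)
  · exact tailBin_posParts tailN52P1_check tailN52P1_parts envTable52_check (by decide +kernel)
  · exact tailBin_posParts tailN52P2_check tailN52P2_parts envTable52_check (by decide +kernel)
  · exact tailBin_posParts tailN52P3_check tailN52P3_parts envTable52_check (by decide +kernel)

end Vale.Agent.P237.Quant
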